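import Vale.Agent.P040.Lin.Order

/-!
# Rows C1, C2: discordant pairs of the two end states are crossings
-/

namespace Vale.Agent.P040.Lin

open Finset Vale.Agent.P040.All Vale.Agent.P040.Rect

variable {k : ℕ} {r : ℕ → ℝ × ℝ} {b b' : ℝ × ℝ}

/-- (C1) a discordant pair gives a crossing.  By O4, O5 the pair is on the same side of the line (`0 < h p * h q`) and
`det b (r p) (r q)`, `det b' (r p) (r q)` have the same sign (both nonzero, O6).  Then `Rect.cross_of_same_sides b b' (r p) (r q)`
(use `det_cyc` for its second hypothesis). -/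
lemma cross_of_disc (h : Gen k r b b') {p q : ℕ} (hpq : p < q) (hq : q < 2 * k + 1)
    (hd : ¬ (stI k r b b' 1 p < stI k r b b' 1 q ↔ stI k r b b' (-1) p < stI k r b b' (-1) q)) :
    (segment ℝ b (r p) ∩ segment ℝ b' (r q)).Nonempty ∨
      (segment ℝ b (r q) ∩ segment ℝ b' (r p)).Nonempty := by
  have hp : p < 2 * k + 1 := by omega
  have hne : p ≠ q := by omega
  rw [stI_one_lt_iff h hp hq hne, stI_neg_one_lt_iff h hp hq hne] at hd
  obtain ⟨hD, hD'⟩ := h.hd_ne hp hq hne
  have hH : ¬ (0 < hB r b b' p ∧ hB r b b' q < 0) := by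
    intro hH
    exact hd ⟨fun _ => Or.inl hH, fun _ => Or.inl hH⟩
  have hS : 0 < hB r b b' p * hB r b b' q := by
    by_contra hS
    apply hd
    constructor
    · rintro (h1 | h1)
      · exact absurd h1 hH
      · exact absurd h1.1 hS
    · rintro (h1 | h1)
      · exact absurd h1 hH
      · exact absurd h1.1 hS
  have hDD : 0 < det b (r p) (r q) * det b' (r p) (r q) := by
    rcases lt_or_gt_of_ne hD with h1 | h1
    · rcases lt_or_gt_of_ne hD' with h2 | h2
      · exact mul_pos_of_neg_of_neg h1 h2
      · exfalso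
        apply hd
        constructor
        · rintro (h3 | h3)
          · exact absurd h3 hH
          · exact absurd h3.2 (not_lt.2 h1.le)
        · rintro (h3 | h3)
          · exact absurd h3 hH
          · exact absurd h3.2 (not_lt.2 h2.le)
    · rcases lt_or_gt_of_ne hD' with h2 | h2
      · exfalso
        exact hd ⟨fun _ => Or.inr ⟨hS, h2⟩, fun _ => Or.inr ⟨hS, h1⟩⟩
      · exact mul_pos h1 h2
  apply cross_of_same_sides b b' (r p) (r q)
  · exact hS
  · rw [det_cyc b (r p) (r q), det_cyc b' (r p) (r q)]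
    exact hDD

/-- (C2) `card_le_card_of_injOn` with the map `(p,q) ↦ (p,q)` if the first alternative of C1 holds, `(q,p)` otherwise;
it is injective on `Disc` because `p < q` there. -/
lemma disc_le_crR (h : Gen k r b b') :
    (Disc (2 * k + 1) (stI k r b b' 1) (stI k r b b' (-1))).card ≤ crR k r b b' := by
  classical
  unfold crR
  refine Finset.card_le_card_of_injOn
    (fun z : ℕ × ℕ => if (segment ℝ b (r z.1) ∩ segment ℝ b' (r z.2)).Nonempty then z else (z.2, z.1)) ?_ ?_
  · intro z hz
    have hz' := hz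
    simp only [Disc, Finset.coe_filter, Finset.mem_product, Finset.mem_range, Set.mem_ofPred_eq] at hz'
    obtain ⟨⟨h1, h2⟩, hlt, hd⟩ := hz'
    have hc := cross_of_disc h hlt h2 hd
    by_cases hA : (segment ℝ b (r z.1) ∩ segment ℝ b' (r z.2)).Nonempty
    · beta_reduce
      rw [if_pos hA]
      simp only [Finset.coe_filter, Finset.mem_product, Finset.mem_range, Set.mem_ofPred_eq]
      exact ⟨⟨h1, h2⟩, hlt.ne, hA⟩
    · beta_reduce
      rw [if_neg hA]
      simp only [Finset.coe_filter, Finset.mem_product, Finset.mem_range, Set.mem_ofPred_eq]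
      exact ⟨⟨h2, h1⟩, hlt.ne', hc.resolve_left hA⟩
  · intro z hz w hw hzw
    have hz' := hz
    have hw' := hw
    simp only [Disc, Finset.coe_filter, Finset.mem_product, Finset.mem_range, Set.mem_ofPred_eq] at hz' hw'
    obtain ⟨-, hzlt, -⟩ := hz'
    obtain ⟨-, hwlt, -⟩ := hw'
    obtain ⟨z1, z2⟩ := z
    obtain ⟨w1, w2⟩ := w
    simp only at hzw hzlt hwlt
    split_ifs at hzw with hA hB hB
    · exact hzw
    · simp only [Prod.mk.injEq] at hzw
      omega
    · simp only [Prod.mk.injEq] at hzw
      omega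
    · simp only [Prod.mk.injEq] at hzw
      simp only [Prod.mk.injEq]
      omega

end Vale.Agent.P040.Lin
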