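import Vale.Agent.P040.Lin.Tools
import Vale.Agent.P040.All.Rot
import Vale.Agent.P040.All.Ext
import Vale.Agent.P040.All.Therm
import Vale.Agent.P040.Rect.Radon

/-!
# Rectilinear drawings of `K_{m,n}`: definitions for the pair inequality

See `notes/P040_rectilinear_h34.md` (and `notes/P040_rectilinear.md`).  Reds `r 0, …, r (2k)` sorted by abscissa.
-/

namespace Vale.Agent.P040.Lin

open Finset Vale.Agent.P040.All Vale.Agent.P040.Rect

/-- the counterclockwise rotation at the point `c`: reds right of `c` by increasing slope, then reds left of `c` by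
increasing slope (ties broken by the label) -/
noncomputable def rotK (r : ℕ → ℝ × ℝ) (c : ℝ × ℝ) (p : ℕ) : ℕ ×ₗ (ℝ ×ₗ ℕ) :=
  toLex (if c.1 < (r p).1 then 0 else 1, toLex (((r p).2 - c.2) / ((r p).1 - c.1), p))

/-- integer keys of the rotation at `c` -/
noncomputable def rotI (k : ℕ) (r : ℕ → ℝ × ℝ) (c : ℝ × ℝ) : ℕ → ℤ := ik (2 * k + 1) (rotK r c)

/-- `w = x(b') - x(b)` -/
def wB (b b' : ℝ × ℝ) : ℝ := b'.1 - b.1

/-- `A_p = 2 x_p - x(b) - x(b')` -/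
def AB (r : ℕ → ℝ × ℝ) (b b' : ℝ × ℝ) (p : ℕ) : ℝ := 2 * (r p).1 - b.1 - b'.1

/-- `h_p = det(b, b', r_p)` -/
def hB (r : ℕ → ℝ × ℝ) (b b' : ℝ × ℝ) (p : ℕ) : ℝ := det b b' (r p)

/-- integer keys of the state `u` of the path from the rotation at `b` (`u = 1`) to the reversed rotation at `b'`
(`u = -1`) -/
noncomputable def stI (k : ℕ) (r : ℕ → ℝ × ℝ) (b b' : ℝ × ℝ) (u : ℝ) : ℕ → ℤ :=
  stk (2 * k + 1) (wB b b') (AB r b b') (hB r b b') u

/-- the time at which the moving point passes the abscissa of the red `i` -/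
noncomputable def tm (r : ℕ → ℝ × ℝ) (b b' : ℝ × ℝ) (i : ℕ) : ℝ := -(wB b b') / AB r b b' i

/-- `ξ_x(c) = N_x(π_c) - lo_x` -/
noncomputable def xiR (k : ℕ) (r : ℕ → ℝ × ℝ) (c : ℝ × ℝ) (x : ℕ) : ℕ := NN k (rotI k r c) x - (k - x)

/-- the feature `(x, τ)` of the blue point `c` -/
noncomputable def PhiR (k : ℕ) (r : ℕ → ℝ × ℝ) (f : ℕ × ℕ) (c : ℝ × ℝ) : Bool :=
  if c.1 < (r f.1).1 then decide (f.2 < xiR k r c f.1) else decide (wd k f.1 ≤ f.2 + xiR k r c f.1)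

/-- hypotheses on a pair of blue points `b`, `b'` and the reds -/
structure Gen (k : ℕ) (r : ℕ → ℝ × ℝ) (b b' : ℝ × ℝ) : Prop where
  hr : ∀ i j, i < j → j < 2 * k + 1 → (r i).1 < (r j).1
  hbb : b.1 < b'.1
  hb : ∀ i < 2 * k + 1, (r i).1 ≠ b.1
  hb' : ∀ i < 2 * k + 1, (r i).1 ≠ b'.1
  hL : ∀ i < 2 * k + 1, det b b' (r i) ≠ 0
  hd : ∀ i j, i < j → j < 2 * k + 1 → det b (r i) (r j) ≠ 0
  hd' : ∀ i j, i < j → j < 2 * k + 1 → det b' (r i) (r j) ≠ 0

open Classical in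
/-- number of ordered pairs `(x, x')`, `x ≠ x'`, such that the segments `b (r x)` and `b' (r x')` meet -/
noncomputable def crR (k : ℕ) (r : ℕ → ℝ × ℝ) (b b' : ℝ × ℝ) : ℕ :=
  (((range (2 * k + 1)) ×ˢ (range (2 * k + 1))).filter fun z =>
    z.1 ≠ z.2 ∧ (segment ℝ b (r z.1) ∩ segment ℝ b' (r z.2)).Nonempty).card

end Vale.Agent.P040.Lin
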