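import Vale.Agent.P040.Lin.Order

/-!
# Rows P1 - P4: the end states are rotations of the rotation at `b` and of the reversed rotation at `b'`
-/

namespace Vale.Agent.P040.Lin

open Finset Vale.Agent.P040.All Vale.Agent.P040.Rect

variable {k : ℕ} {r : ℕ → ℝ × ℝ} {b b' : ℝ × ℝ}

private lemma quad_sign {w a a' g g' D : ℝ} (hw : 0 < w) (e : a * g' - a' * g = w * D) :
    ((0 < a ∧ 0 < g' ∨ a < 0 ∧ g' < 0) → (0 < a' ∧ g < 0 ∨ a' < 0 ∧ 0 < g) → 0 < D) ∧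
    ((0 < a ∧ g' < 0 ∨ a < 0 ∧ 0 < g') → (0 < a' ∧ 0 < g ∨ a' < 0 ∧ g < 0) → D < 0) := by
  constructor
  · intro h1 h2
    have p1 : 0 < a * g' := mul_pos_iff.2 h1
    have p2 : a' * g < 0 := mul_neg_iff.2 h2
    have : 0 < w * D := by linarith
    exact (mul_pos_iff_of_pos_left hw).1 this
  · intro h1 h2
    have p1 : a * g' < 0 := mul_neg_iff.2 h1
    have p2 : 0 < a' * g := mul_pos_iff.2 h2
    by_contra hh
    have := mul_nonneg hw.le (not_lt.1 hh)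
    linarith

private lemma quad_main {w a a' g g' D : ℝ} (hw : 0 < w) (e : a * g' - a' * g = w * D)
    (ha : a ≠ 0) (ha' : a' ≠ 0) (hg : g ≠ 0) (hg' : g' ≠ 0) (hD : D ≠ 0) :
    (((0 < a ∧ g < 0) ↔ (0 < a' ∧ g' < 0)) →
      (((0 < a ∧ a' < 0) ∨ (0 < a * a' ∧ 0 < D)) ↔ ((0 < g ∧ g' < 0) ∨ (0 < g * g' ∧ 0 < D)))) ∧
    ((0 < a ∧ g < 0) → ¬ (0 < a' ∧ g' < 0) →
      ((0 < a ∧ a' < 0) ∨ (0 < a * a' ∧ 0 < D)) ∧ ((0 < g' ∧ g < 0) ∨ (0 < g' * g ∧ 0 < -D))) := by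
  obtain ⟨c1, c2⟩ := quad_sign hw e
  rw [mul_pos_iff, mul_pos_iff, mul_pos_iff, neg_pos]
  rcases lt_or_gt_of_ne ha with ha | ha <;> rcases lt_or_gt_of_ne ha' with ha' | ha' <;>
  rcases lt_or_gt_of_ne hg with hg | hg <;> rcases lt_or_gt_of_ne hg' with hg' | hg' <;>
  rcases lt_or_gt_of_ne hD with hD | hD <;>
  (have na := lt_asymm ha; have na' := lt_asymm ha'; have ng := lt_asymm hg
   have ng' := lt_asymm hg'; have nD := lt_asymm hD
   simp only [ha, ha', hg, hg', hD, na, na', ng, ng', nD, and_true, and_false,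
     or_false, or_true, not_true, not_false_iff, false_imp_iff,
     imp_false, iff_true, iff_false, imp_self, and_self] at c1 c2 ⊢)

private lemma rot_one_aux (h : Gen k r b b') {x y : ℕ} (hx : x < 2 * k + 1) (hy : y < 2 * k + 1)
    (hxy : x ≠ y) :
    (((b.1 < (r x).1 ∧ hB r b b' x < 0) ↔ (b.1 < (r y).1 ∧ hB r b b' y < 0)) →
      (rotI k r b x < rotI k r b y ↔ stI k r b b' 1 x < stI k r b b' 1 y)) ∧
    ((b.1 < (r x).1 ∧ hB r b b' x < 0) → ¬ (b.1 < (r y).1 ∧ hB r b b' y < 0) →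
      rotI k r b x < rotI k r b y ∧ stI k r b b' 1 y < stI k r b b' 1 x) := by
  have hD := (h.hd_ne hx hy hxy).1
  rw [rotI_lt_iff b hx (h.hb x hx) (h.hb y hy) hD, stI_one_lt_iff h hx hy hxy,
    stI_one_lt_iff h hy hx (Ne.symm hxy), det_swap b (r x) (r y)]
  have hw : 0 < b'.1 - b.1 := sub_pos.2 h.hbb
  have e := id_b b b' (r x) (r y)
  have := quad_main hw e (sub_ne_zero.2 (h.hb x hx)) (sub_ne_zero.2 (h.hb y hy)) (h.hL x hx)
    (h.hL y hy) hD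
  simp only [sub_pos, sub_neg] at this
  exact this

/-- (P1) `π_b = [DR][UR][UL][DL]`, state 1 `= [UR][UL][DL][DR]`.  Rewrite all comparisons with O3 (`rotI_lt_iff`, for `x ≠ y`;
the case `x = y` is trivial) and O4 (`stI_one_lt_iff`).  The sign of `det b (r x) (r y)` for `x, y` in different quadrants comes from
`id_b`: `w * det b x y = dx_x * h_y - dx_y * h_x` with `w > 0` (`nlinarith` / `mul_pos`, `mul_neg`-type facts).
Quadrants: sign of `dx = (r x).1 - b.1` (nonzero by `h.hb`) and of `hB` (nonzero by `h.hL`). -/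
lemma rot_one (h : Gen k r b b') :
    Rot (2 * k + 1) (rotI k r b) (stI k r b b' 1) (fun p => b.1 < (r p).1 ∧ hB r b b' p < 0) := by
  refine ⟨?_, ?_, ?_⟩
  · intro x hx y hy hAx hAy
    by_cases hxy : x = y
    · subst hxy; simp
    · exact (rot_one_aux h hx hy hxy).1 (iff_of_true hAx hAy)
  · intro x hx y hy hAx hAy
    by_cases hxy : x = y
    · subst hxy; simp
    · exact (rot_one_aux h hx hy hxy).1 (iff_of_false hAx hAy)
  · intro x hx y hy hAx hAy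
    have hxy : x ≠ y := by
      rintro rfl
      exact hAy hAx
    exact (rot_one_aux h hx hy hxy).2 hAx hAy

private lemma sgn_aux_neg (w a c hx hy D : ℝ) (hw : 0 < w) (ha : a ≠ 0) (hc : c ≠ 0) (hhx : hx ≠ 0)
    (hhy : hy ≠ 0) (hD : D ≠ 0) (rel : a * hy - c * hx = w * D) :
    ((a < 0 ∧ hx < 0) → (c < 0 ∧ hy < 0) →
      (((0 < c ∧ a < 0) ∨ (0 < c * a ∧ 0 < -D)) ↔ ((0 < hx ∧ hy < 0) ∨ (0 < hx * hy ∧ D < 0)))) ∧
    (¬ (a < 0 ∧ hx < 0) → ¬ (c < 0 ∧ hy < 0) →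
      (((0 < c ∧ a < 0) ∨ (0 < c * a ∧ 0 < -D)) ↔ ((0 < hx ∧ hy < 0) ∨ (0 < hx * hy ∧ D < 0)))) ∧
    ((a < 0 ∧ hx < 0) → ¬ (c < 0 ∧ hy < 0) →
      (((0 < c ∧ a < 0) ∨ (0 < c * a ∧ 0 < -D)) ∧ ((0 < hy ∧ hx < 0) ∨ (0 < hy * hx ∧ -D < 0)))) := by
  rcases lt_or_gt_of_ne ha with ha | ha <;> rcases lt_or_gt_of_ne hc with hc | hc <;>
  rcases lt_or_gt_of_ne hhx with hhx | hhx <;> rcases lt_or_gt_of_ne hhy with hhy | hhy <;>
  rcases lt_or_gt_of_ne hD with hD | hD <;>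
  first
  | (simp [mul_pos_iff, ha, hc, hhx, hhy, hD, not_lt.2 ha.le,
      not_lt.2 hc.le, not_lt.2 hhx.le, not_lt.2 hhy.le, not_lt.2 hD.le]; done)
  | (exfalso; nlinarith [mul_pos hw hw])

/-- (P2) reverse of `π_b' = [DL][UL][UR][DR]` (decreasing slopes), state -1 `= [UL][UR][DR][DL]`.  As P1 with O5, `id_b'`. -/
lemma rot_neg_one (h : Gen k r b b') :
    Rot (2 * k + 1) (fun y => - rotI k r b' y) (stI k r b b' (-1))
      (fun p => (r p).1 < b'.1 ∧ hB r b b' p < 0) := by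
  have hw : 0 < b'.1 - b.1 := sub_pos.2 h.hbb
  have key : ∀ x < 2 * k + 1, ∀ y < 2 * k + 1, x ≠ y →
      ((- rotI k r b' x < - rotI k r b' y) ↔
        ((0 < (r y).1 - b'.1 ∧ (r x).1 - b'.1 < 0) ∨
          (0 < ((r y).1 - b'.1) * ((r x).1 - b'.1) ∧ 0 < - det b' (r x) (r y)))) := by
    intro x hx y hy hxy
    rw [neg_lt_neg_iff, rotI_lt_iff b' hy (h.hb' y hy) (h.hb' x hx) (h.hd_ne hy hx (Ne.symm hxy)).2,
      det_swap b' (r x) (r y), sub_pos, sub_neg]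
  have aux : ∀ x < 2 * k + 1, ∀ y < 2 * k + 1, x ≠ y → _ :=
    fun x hx y hy hxy => sgn_aux_neg (b'.1 - b.1) ((r x).1 - b'.1) ((r y).1 - b'.1) (hB r b b' x)
      (hB r b b' y) (det b' (r x) (r y)) hw (sub_ne_zero.2 (h.hb' x hx)) (sub_ne_zero.2 (h.hb' y hy))
      (h.hL x hx) (h.hL y hy) (h.hd_ne hx hy hxy).2 (id_b' b b' (r x) (r y))
  constructor
  · intro x hx y hy hAx hAy
    by_cases hxy : x = y
    · subst hxy; simp
    rw [key x hx y hy hxy, stI_neg_one_lt_iff h hx hy hxy]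
    exact (aux x hx y hy hxy).1 ⟨sub_neg.2 hAx.1, hAx.2⟩ ⟨sub_neg.2 hAy.1, hAy.2⟩
  · intro x hx y hy hAx hAy
    by_cases hxy : x = y
    · subst hxy; simp
    rw [key x hx y hy hxy, stI_neg_one_lt_iff h hx hy hxy]
    exact (aux x hx y hy hxy).2.1 (fun hh => hAx ⟨sub_neg.1 hh.1, hh.2⟩)
      (fun hh => hAy ⟨sub_neg.1 hh.1, hh.2⟩)
  · intro x hx y hy hAx hAy
    have hxy : x ≠ y := by
      rintro rfl
      exact hAy hAx
    rw [key x hx y hy hxy, stI_neg_one_lt_iff h hy hx (Ne.symm hxy), det_swap b' (r x) (r y)]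
    exact (aux x hx y hy hxy).2.2 ⟨sub_neg.2 hAx.1, hAx.2⟩ (fun hh => hAy ⟨sub_neg.1 hh.1, hh.2⟩)

/-- (P3) `NN_rot` with P1 (`classical` for the decidability of the block). -/
lemma NN_one (h : Gen k r b b') {x : ℕ} (hx : x < 2 * k + 1) :
    NN k (stI k r b b' 1) x = NN k (rotI k r b) x := by
  classical
  exact NN_rot (rot_one h) hx

/-- (P4) `NN_rot` with P2, then `NN_neg` (`inj_rotI`). -/
lemma NN_neg_one (h : Gen k r b b') {x : ℕ} (hx : x < 2 * k + 1) :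
    NN k (stI k r b b' (-1)) x + NN k (rotI k r b') x = 2 * k - x := by
  classical
  rw [NN_rot (rot_neg_one h) hx]
  exact NN_neg (inj_rotI k r b') hx

end Vale.Agent.P040.Lin
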