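import Vale.Agent.P040.Lin.Order

/-!
# Rows E1 - E8: when the moving point passes the abscissa of the red `i`, the row `i` is extreme
-/

namespace Vale.Agent.P040.Lin

open Finset Vale.Agent.P040.All Vale.Agent.P040.Rect

variable {k : ℕ} {r : ℕ → ℝ × ℝ} {b b' : ℝ × ℝ}

/-- (E1) `A` is increasing (`h.hr`). -/
lemma AB_lt (h : Gen k r b b') {p q : ℕ} (hpq : p < q) (hq : q < 2 * k + 1) :
    AB r b b' p < AB r b b' q := by
  unfold AB
  linarith [h.hr p q hpq hq]

/-- (E2) the real key at the time `tm i`: `unfold val tm; field_simp; ring`. -/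
lemma val_tm (i p : ℕ) (hA : AB r b b' i ≠ 0) (hh : hB r b b' p ≠ 0) :
    val (wB b b') (AB r b b') (hB r b b') (tm r b b' i) p =
      wB b b' * (AB r b b' p - AB r b b' i) / (AB r b b' i * hB r b b' p) := by
  unfold val tm
  field_simp
  ring

/-- (E3) `-1 ≤ tm i ≤ 1` if `w < |A i|` (`w > 0`; split on the sign of `A i`; `div_le_iff`, `le_div_iff`-type lemmas). -/
lemma tm_mem (h : Gen k r b b') {i : ℕ} (hA : wB b b' < |AB r b b' i|) :
    -1 ≤ tm r b b' i ∧ tm r b b' i ≤ 1 := by
  have hw : 0 < wB b b' := by unfold wB; linarith [h.hbb]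
  unfold tm
  rcases lt_abs.1 hA with h1 | h1
  · have hpos : 0 < AB r b b' i := by linarith
    constructor
    · rw [le_div_iff₀ hpos]; linarith
    · rw [div_le_iff₀ hpos]; linarith
  · have hneg : AB r b b' i < 0 := by linarith
    constructor
    · rw [le_div_iff_of_neg hneg]; linarith
    · rw [div_le_iff_of_neg hneg]; linarith

/-- (E4) `A i > 0`, `h i > 0`: state `= [up, p<i] i [up, p>i][low, p>i][low, p<i]`.  Use `stk_lt_iff`, `blk`, E2 (the key of `i` is `0`; the sign
of the key of `p ≠ i` is the sign of `(A p - A i) * h p`), E1, `h.hL`. -/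
lemma blk_pp (h : Gen k r b b') {i : ℕ} (hi : i < 2 * k + 1) (hA : 0 < AB r b b' i)
    (hh : 0 < hB r b b' i) : Blk (2 * k + 1) (stI k r b b' (tm r b b' i)) i (fun y => i < y) := by
  have hw : 0 < wB b b' := by
    unfold wB
    linarith [h.hbb]
  have hA' : AB r b b' i ≠ 0 := ne_of_gt hA
  have hne : ∀ p < 2 * k + 1, hB r b b' p ≠ 0 := fun p hp => h.hL p hp
  have hv : ∀ p < 2 * k + 1, val (wB b b') (AB r b b') (hB r b b') (tm r b b' i) p =
      wB b b' * (AB r b b' p - AB r b b' i) / (AB r b b' i * hB r b b' p) :=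
    fun p hp => val_tm i p hA' (hne p hp)
  have hvi : val (wB b b') (AB r b b') (hB r b b') (tm r b b' i) i = 0 := by
    rw [hv i hi]
    simp
  refine ⟨hi, lt_irrefl _, ?_, ?_⟩
  · intro y hy hiy
    unfold stI
    rw [stk_lt_iff _ _ _ _ hi]
    have hAy := AB_lt h hiy hy
    rcases lt_or_gt_of_ne (hne y hy) with hy0 | hy0
    · left
      simp [blk, hh, not_lt.2 hy0.le]
    · right
      refine ⟨by simp [blk, hh, hy0], Or.inl ?_⟩
      rw [hvi, hv y hy]
      exact div_pos (mul_pos hw (by linarith)) (mul_pos hA hy0)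
  · intro y hy hiy z hz hiz hκ
    have hzi : z ≠ i := by
      rintro rfl
      exact lt_irrefl _ hκ
    have hzi' : z < i := lt_of_le_of_ne (not_lt.1 hiz) hzi
    have hAy := AB_lt h hiy hy
    have hAz := AB_lt h hzi' hi
    unfold stI at hκ ⊢
    rw [stk_lt_iff _ _ _ _ hi] at hκ
    rw [stk_lt_iff _ _ _ _ hy]
    have hz0 : hB r b b' z < 0 := by
      rcases lt_or_gt_of_ne (hne z hz) with hz0 | hz0
      · exact hz0
      · exfalso
        have hvz : val (wB b b') (AB r b b') (hB r b b') (tm r b b' i) z < 0 := by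
          rw [hv z hz]
          exact div_neg_of_neg_of_pos (mul_neg_of_pos_of_neg hw (by linarith)) (mul_pos hA hz0)
        rcases hκ with hκ | ⟨-, hκ | ⟨hκ, -⟩⟩
        · simp [blk, hh, hz0] at hκ
        · rw [hvi] at hκ
          linarith
        · rw [hvi] at hκ
          linarith
    rcases lt_or_gt_of_ne (hne y hy) with hy0 | hy0
    · right
      refine ⟨by simp [blk, not_lt.2 hy0.le, not_lt.2 hz0.le], Or.inl ?_⟩
      have h1 : val (wB b b') (AB r b b') (hB r b b') (tm r b b' i) y < 0 := by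
        rw [hv y hy]
        exact div_neg_of_pos_of_neg (mul_pos hw (by linarith)) (mul_neg_of_pos_of_neg hA hy0)
      have h2 : 0 < val (wB b b') (AB r b b') (hB r b b') (tm r b b' i) z := by
        rw [hv z hz]
        exact div_pos_of_neg_of_neg (mul_neg_of_pos_of_neg hw (by linarith))
          (mul_neg_of_pos_of_neg hA hz0)
      linarith
    · left
      simp [blk, hy0, not_lt.2 hz0.le]

/-- (E5) `A i > 0`, `h i < 0`: state `= [up, p<i][up, p>i][low, p>i] i [low, p<i]`. -/
lemma blk_pn (h : Gen k r b b') {i : ℕ} (hi : i < 2 * k + 1) (hA : 0 < AB r b b' i)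
    (hh : hB r b b' i < 0) :
    Blk (2 * k + 1) (fun y => - stI k r b b' (tm r b b' i) y) i (fun y => i < y) := by
  have hw : 0 < wB b b' := by unfold wB; linarith [h.hbb]
  have hvi : val (wB b b') (AB r b b') (hB r b b') (tm r b b' i) i = 0 := by
    rw [val_tm i i hA.ne' hh.ne]; simp
  have hbi : blk (hB r b b') i = 1 := by unfold blk; rw [if_neg (not_lt.2 hh.le)]
  have hup : ∀ p, 0 < hB r b b' p → blk (hB r b b') p = 0 := fun p hp => by
    unfold blk; rw [if_pos hp]
  have hlo : ∀ p, hB r b b' p < 0 → blk (hB r b b') p = 1 := fun p hp => by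
    unfold blk; rw [if_neg (not_lt.2 hp.le)]
  have hne : ∀ p < 2 * k + 1, hB r b b' p ≠ 0 := fun p hp => h.hL p hp
  refine ⟨hi, lt_irrefl _, ?_, ?_⟩
  · intro y hy hiy
    have hAy := AB_lt h hiy hy
    show - stI k r b b' (tm r b b' i) i < - stI k r b b' (tm r b b' i) y
    rw [neg_lt_neg_iff]
    unfold stI
    rw [stk_lt_iff _ _ _ _ hy]
    rcases lt_or_gt_of_ne (hne y hy) with hy0 | hy0
    · right
      refine ⟨by rw [hlo y hy0, hbi], Or.inl ?_⟩
      rw [hvi, val_tm i y hA.ne' hy0.ne]
      apply div_neg_of_pos_of_neg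
      · exact mul_pos hw (by linarith)
      · exact mul_neg_of_pos_of_neg hA hy0
    · left
      rw [hup y hy0, hbi]; exact Nat.zero_lt_one
  · intro y hy hiy z hz hiz hzi
    have hAy := AB_lt h hiy hy
    change - stI k r b b' (tm r b b' i) i < - stI k r b b' (tm r b b' i) z at hzi
    show - stI k r b b' (tm r b b' i) y < - stI k r b b' (tm r b b' i) z
    rw [neg_lt_neg_iff] at hzi ⊢
    have hzne : z ≠ i := by
      rintro rfl
      exact lt_irrefl _ hzi
    have hzlt : z < i := lt_of_le_of_ne (not_lt.1 hiz) hzne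
    have hAz := AB_lt h hzlt hi
    unfold stI at hzi ⊢
    rw [stk_lt_iff _ _ _ _ hz] at hzi ⊢
    rcases lt_or_gt_of_ne (hne z hz) with hz0 | hz0
    · exfalso
      rw [hlo z hz0, hbi, hvi, val_tm i z hA.ne' hz0.ne] at hzi
      have hpos : 0 < wB b b' * (AB r b b' z - AB r b b' i) / (AB r b b' i * hB r b b' z) := by
        apply div_pos_of_neg_of_neg
        · exact mul_neg_of_pos_of_neg hw (by linarith)
        · exact mul_neg_of_pos_of_neg hA hz0
      rcases hzi with h1 | ⟨-, h1 | ⟨h1, -⟩⟩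
      · exact lt_irrefl _ h1
      · linarith
      · linarith
    · rcases lt_or_gt_of_ne (hne y hy) with hy0 | hy0
      · left
        rw [hup z hz0, hlo y hy0]; exact Nat.zero_lt_one
      · right
        refine ⟨by rw [hup z hz0, hup y hy0], Or.inl ?_⟩
        rw [val_tm i z hA.ne' hz0.ne', val_tm i y hA.ne' hy0.ne']
        have h1 : wB b b' * (AB r b b' z - AB r b b' i) / (AB r b b' i * hB r b b' z) < 0 := by
          apply div_neg_of_neg_of_pos
          · exact mul_neg_of_pos_of_neg hw (by linarith)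
          · exact mul_pos hA hz0
        have h2 : 0 < wB b b' * (AB r b b' y - AB r b b' i) / (AB r b b' i * hB r b b' y) := by
          apply div_pos
          · exact mul_pos hw (by linarith)
          · exact mul_pos hA hy0
        linarith

/-- (E6) `A i < 0`, `h i > 0`: state `= [up, p>i] i [up, p<i][low, p<i][low, p>i]`. -/
lemma blk_np (h : Gen k r b b') {i : ℕ} (hi : i < 2 * k + 1) (hA : AB r b b' i < 0)
    (hh : 0 < hB r b b' i) : Blk (2 * k + 1) (stI k r b b' (tm r b b' i)) i (fun y => y < i) := by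
  have hw : 0 < wB b b' := by unfold wB; linarith [h.hbb]
  have hAne : AB r b b' i ≠ 0 := ne_of_lt hA
  have hne : ∀ p < 2 * k + 1, hB r b b' p ≠ 0 := fun p hp => h.hL p hp
  have vi : val (wB b b') (AB r b b') (hB r b b') (tm r b b' i) i = 0 := by
    rw [val_tm i i hAne (ne_of_gt hh)]; simp
  have bi : blk (hB r b b') i = 0 := by unfold blk; rw [if_pos hh]
  have bup : ∀ p, 0 < hB r b b' p → blk (hB r b b') p = 0 := fun p hp => by
    unfold blk; rw [if_pos hp]
  have blow : ∀ p, hB r b b' p < 0 → blk (hB r b b') p = 1 := fun p hp => by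
    unfold blk; rw [if_neg (not_lt.2 hp.le)]
  have v1 : ∀ y < 2 * k + 1, y < i → 0 < hB r b b' y →
      0 < val (wB b b') (AB r b b') (hB r b b') (tm r b b' i) y := fun y hy hyi hp => by
    rw [val_tm i y hAne (hne y hy)]
    have hlt := AB_lt h hyi hi
    exact div_pos_of_neg_of_neg (mul_neg_of_pos_of_neg hw (by linarith))
      (mul_neg_of_neg_of_pos hA hp)
  have v2 : ∀ y < 2 * k + 1, y < i → hB r b b' y < 0 →
      val (wB b b') (AB r b b') (hB r b b') (tm r b b' i) y < 0 := fun y hy hyi hp => by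
    rw [val_tm i y hAne (hne y hy)]
    have hlt := AB_lt h hyi hi
    exact div_neg_of_neg_of_pos (mul_neg_of_pos_of_neg hw (by linarith))
      (mul_pos_of_neg_of_neg hA hp)
  have v3 : ∀ z < 2 * k + 1, i < z → 0 < hB r b b' z →
      val (wB b b') (AB r b b') (hB r b b') (tm r b b' i) z < 0 := fun z hz hiz hp => by
    rw [val_tm i z hAne (hne z hz)]
    have hlt := AB_lt h hiz hz
    exact div_neg_of_pos_of_neg (mul_pos hw (by linarith)) (mul_neg_of_neg_of_pos hA hp)
  have v4 : ∀ z < 2 * k + 1, i < z → hB r b b' z < 0 →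
      0 < val (wB b b') (AB r b b') (hB r b b') (tm r b b' i) z := fun z hz hiz hp => by
    rw [val_tm i z hAne (hne z hz)]
    have hlt := AB_lt h hiz hz
    exact div_pos (mul_pos hw (by linarith)) (mul_pos_of_neg_of_neg hA hp)
  refine ⟨hi, lt_irrefl i, ?_, ?_⟩
  · intro y hy hyi
    unfold stI
    rw [stk_lt_iff _ _ _ _ hi]
    rcases lt_or_gt_of_ne (hne y hy) with hp | hp
    · left; rw [bi, blow y hp]; norm_num
    · right; exact ⟨by rw [bi, bup y hp], Or.inl (by rw [vi]; exact v1 y hy hyi hp)⟩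
  · intro y hy hyi z hz hzi hiz
    unfold stI at hiz ⊢
    rw [stk_lt_iff _ _ _ _ hi] at hiz
    rw [stk_lt_iff _ _ _ _ hy]
    have hzi' : i ≤ z := not_lt.1 hzi
    rcases eq_or_lt_of_le hzi' with rfl | hlt
    · exfalso
      rcases hiz with h1 | ⟨_, h1 | ⟨_, h1⟩⟩
      · exact lt_irrefl _ h1
      · exact lt_irrefl _ h1
      · exact lt_irrefl _ h1
    · rcases lt_or_gt_of_ne (hne z hz) with hpz | hpz
      · rcases lt_or_gt_of_ne (hne y hy) with hp | hp
        · right
          exact ⟨by rw [blow y hp, blow z hpz],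
            Or.inl (lt_trans (v2 y hy hyi hp) (v4 z hz hlt hpz))⟩
        · left; rw [bup y hp, blow z hpz]; norm_num
      · exfalso
        have hv := v3 z hz hlt hpz
        rcases hiz with h1 | ⟨_, h1 | ⟨h1, _⟩⟩
        · rw [bi, bup z hpz] at h1; exact lt_irrefl _ h1
        · rw [vi] at h1; linarith
        · rw [vi] at h1; linarith

/-- (E7) `A i < 0`, `h i < 0`: state `= [up, p>i][up, p<i][low, p<i] i [low, p>i]`. -/
lemma blk_nn (h : Gen k r b b') {i : ℕ} (hi : i < 2 * k + 1) (hA : AB r b b' i < 0)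
    (hh : hB r b b' i < 0) :
    Blk (2 * k + 1) (fun y => - stI k r b b' (tm r b b' i) y) i (fun y => y < i) := by
  have hw : 0 < wB b b' := by unfold wB; linarith [h.hbb]
  have hvi : val (wB b b') (AB r b b') (hB r b b') (tm r b b' i) i = 0 := by
    rw [val_tm i i hA.ne hh.ne]; simp
  have hbi : blk (hB r b b') i = 1 := by unfold blk; rw [if_neg (not_lt.2 hh.le)]
  have hup : ∀ p, 0 < hB r b b' p → blk (hB r b b') p = 0 := fun p hp => by
    unfold blk; rw [if_pos hp]
  have hlo : ∀ p, hB r b b' p < 0 → blk (hB r b b') p = 1 := fun p hp => by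
    unfold blk; rw [if_neg (not_lt.2 hp.le)]
  have hne : ∀ p < 2 * k + 1, hB r b b' p ≠ 0 := fun p hp => h.hL p hp
  refine ⟨hi, lt_irrefl _, ?_, ?_⟩
  · intro y hy hiy
    have hAy := AB_lt h hiy hi
    show - stI k r b b' (tm r b b' i) i < - stI k r b b' (tm r b b' i) y
    rw [neg_lt_neg_iff]
    unfold stI
    rw [stk_lt_iff _ _ _ _ hy]
    rcases lt_or_gt_of_ne (hne y hy) with hy0 | hy0
    · right
      refine ⟨by rw [hlo y hy0, hbi], Or.inl ?_⟩
      rw [hvi, val_tm i y hA.ne hy0.ne]
      apply div_neg_of_neg_of_pos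
      · exact mul_neg_of_pos_of_neg hw (by linarith)
      · exact mul_pos_of_neg_of_neg hA hy0
    · left
      rw [hup y hy0, hbi]; exact Nat.zero_lt_one
  · intro y hy hiy z hz hiz hzi
    have hAy := AB_lt h hiy hi
    change - stI k r b b' (tm r b b' i) i < - stI k r b b' (tm r b b' i) z at hzi
    show - stI k r b b' (tm r b b' i) y < - stI k r b b' (tm r b b' i) z
    rw [neg_lt_neg_iff] at hzi ⊢
    have hzne : z ≠ i := by
      rintro rfl
      exact lt_irrefl _ hzi
    have hzlt : i < z := lt_of_le_of_ne (not_lt.1 hiz) hzne.symm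
    have hAz := AB_lt h hzlt hz
    unfold stI at hzi ⊢
    rw [stk_lt_iff _ _ _ _ hz] at hzi ⊢
    rcases lt_or_gt_of_ne (hne z hz) with hz0 | hz0
    · exfalso
      rw [hlo z hz0, hbi, hvi, val_tm i z hA.ne hz0.ne] at hzi
      have hpos : 0 < wB b b' * (AB r b b' z - AB r b b' i) / (AB r b b' i * hB r b b' z) := by
        apply div_pos
        · exact mul_pos hw (by linarith)
        · exact mul_pos_of_neg_of_neg hA hz0
      rcases hzi with h1 | ⟨-, h1 | ⟨h1, -⟩⟩
      · exact lt_irrefl _ h1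
      · linarith
      · linarith
    · rcases lt_or_gt_of_ne (hne y hy) with hy0 | hy0
      · left
        rw [hup z hz0, hlo y hy0]; exact Nat.zero_lt_one
      · right
        refine ⟨by rw [hup z hz0, hup y hy0], Or.inl ?_⟩
        rw [val_tm i z hA.ne hz0.ne', val_tm i y hA.ne hy0.ne']
        have h1 : wB b b' * (AB r b b' z - AB r b b' i) / (AB r b b' i * hB r b b' z) < 0 := by
          apply div_neg_of_pos_of_neg
          · exact mul_pos hw (by linarith)
          · exact mul_neg_of_neg_of_pos hA hz0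
        have h2 : 0 < wB b b' * (AB r b b' y - AB r b b' i) / (AB r b b' i * hB r b b' y) := by
          apply div_pos_of_neg_of_neg
          · exact mul_neg_of_pos_of_neg hw (by linarith)
          · exact mul_neg_of_neg_of_pos hA hy0
        linarith

/-- (E8) `NN_extreme` with `inj_stk` and E4 - E7 (`A i ≠ 0`, `h i ≠ 0`). -/
lemma NN_tm (h : Gen k r b b') {i : ℕ} (hi : i < 2 * k + 1) (hA : AB r b b' i ≠ 0) :
    NN k (stI k r b b' (tm r b b' i)) i = k - i ∨
      NN k (stI k r b b' (tm r b b' i)) i = min k (2 * k - i) := by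
  have hh : hB r b b' i ≠ 0 := h.hL i hi
  refine NN_extreme (inj_stk (2 * k + 1) (wB b b') (AB r b b') (hB r b b') (tm r b b' i)) ?_
  rcases lt_or_gt_of_ne hA with hA' | hA'
  · rcases lt_or_gt_of_ne hh with hh' | hh'
    · exact Or.inr (Or.inr (Or.inl (blk_nn h hi hA' hh')))
    · exact Or.inl (blk_np h hi hA' hh')
  · rcases lt_or_gt_of_ne hh with hh' | hh'
    · exact Or.inr (Or.inr (Or.inr (blk_pn h hi hA' hh')))
    · exact Or.inr (Or.inl (blk_pp h hi hA' hh'))

end Vale.Agent.P040.Lin
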