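import Mathlib

/-!
# Plane geometry for straight-line drawings of `K_{m,n}`

Points are pairs of reals.  `orient a b c` is twice the signed area of the triangle `a b c`.
`SegCross a r a' s` says that the open segments `a r` and `a' s` have a common point.
-/

namespace Vale.Agent.P040.Lin

/-- twice the signed area of the triangle `a b c` -/
def orient (a b c : ℝ × ℝ) : ℝ :=
  (b.1 - a.1) * (c.2 - a.2) - (b.2 - a.2) * (c.1 - a.1)

/-- the open segments `a r` and `a' s` have a common point -/
def SegCross (a r a' s : ℝ × ℝ) : Prop :=
  ∃ t u : ℝ, 0 < t ∧ t < 1 ∧ 0 < u ∧ u < 1 ∧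
    a.1 + t * (r.1 - a.1) = a'.1 + u * (s.1 - a'.1) ∧
    a.2 + t * (r.2 - a.2) = a'.2 + u * (s.2 - a'.2)

lemma orient_cyc (a b c : ℝ × ℝ) : orient b c a = orient a b c := by
  unfold orient; ring

lemma orient_swap (a b c : ℝ × ℝ) : orient b a c = - orient a b c := by
  unfold orient; ring

lemma orient_swap' (a b c : ℝ × ℝ) : orient a c b = - orient a b c := by
  unfold orient; ring

/-- the four point relation -/
lemma orient_four (a b c d : ℝ × ℝ) :
    orient a b c - orient a b d + orient c d a - orient c d b = 0 := by
  unfold orient; ring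

/-- all four orientations positive: the segments `b r`, `b' s` cross -/
lemma segCross_of_pos {b b' r s : ℝ × ℝ} (h1 : 0 < orient b b' r) (h2 : 0 < orient b b' s)
    (h3 : 0 < orient r s b) (h4 : 0 < orient r s b') : SegCross b r b' s := by
  have h5 := orient_four b b' r s
  have hD : 0 < orient b b' s + orient r s b' := by linarith
  have hD' : orient b b' r + orient r s b = orient b b' s + orient r s b' := by linarith
  refine ⟨orient b b' s / (orient b b' s + orient r s b'),
    orient b b' r / (orient b b' s + orient r s b'), by positivity, ?_, by positivity, ?_, ?_, ?_⟩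
  · rw [div_lt_one hD]; linarith
  · rw [div_lt_one hD]; linarith
  · have hne := hD.ne'
    field_simp
    unfold orient
    ring
  · have hne := hD.ne'
    field_simp
    unfold orient
    ring

/-- all four orientations negative: the segments `b r`, `b' s` cross -/
lemma segCross_of_neg {b b' r s : ℝ × ℝ} (h1 : orient b b' r < 0) (h2 : orient b b' s < 0)
    (h3 : orient r s b < 0) (h4 : orient r s b' < 0) : SegCross b r b' s := by
  have h5 := orient_four b b' r s
  have hD : orient b b' s + orient r s b' < 0 := by linarith
  refine ⟨orient b b' s / (orient b b' s + orient r s b'),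
    orient b b' r / (orient b b' s + orient r s b'), div_pos_of_neg_of_neg h2 hD, ?_,
    div_pos_of_neg_of_neg h1 hD, ?_, ?_, ?_⟩
  · rw [div_lt_one_of_neg hD]; linarith
  · rw [div_lt_one_of_neg hD]; linarith
  · have hne := hD.ne
    field_simp
    unfold orient
    ring
  · have hne := hD.ne
    field_simp
    unfold orient
    ring

/-- **The crossing lemma.** If `r, s` are strictly on the same side of the line `b b'` and `b, b'`
are strictly on the same side of the line `r s`, then `b r` crosses `b' s` or `b s` crosses
`b' r`. -/
theorem segCross_or {b b' r s : ℝ × ℝ} (h1 : 0 < orient b b' r * orient b b' s)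
    (h2 : 0 < orient r s b * orient r s b') : SegCross b r b' s ∨ SegCross b s b' r := by
  have e1 : orient s r b = - orient r s b := orient_swap r s b
  have e2 : orient s r b' = - orient r s b' := orient_swap r s b'
  rcases pos_and_pos_or_neg_and_neg_of_mul_pos h1 with ⟨a1, a2⟩ | ⟨a1, a2⟩ <;>
  rcases pos_and_pos_or_neg_and_neg_of_mul_pos h2 with ⟨a3, a4⟩ | ⟨a3, a4⟩
  · exact Or.inl (segCross_of_pos a1 a2 a3 a4)
  · exact Or.inr (segCross_of_pos a2 a1 (by linarith) (by linarith))
  · exact Or.inr (segCross_of_neg a2 a1 (by linarith) (by linarith))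
  · exact Or.inl (segCross_of_neg a1 a2 a3 a4)

/-- a crossing in the sense of `SegCross` gives a common point of the open segments -/
lemma SegCross.openSegment_inter {a r a' s : ℝ × ℝ} (h : SegCross a r a' s) :
    (openSegment ℝ a r ∩ openSegment ℝ a' s).Nonempty := by
  obtain ⟨t, u, ht0, ht1, hu0, hu1, e1, e2⟩ := h
  refine ⟨(a.1 + t * (r.1 - a.1), a.2 + t * (r.2 - a.2)), ?_, ?_⟩
  · refine ⟨1 - t, t, by linarith, ht0, by ring, ?_⟩
    ext <;> simp <;> ring
  · refine ⟨1 - u, u, by linarith, hu0, by ring, ?_⟩
    ext
    · simp; rw [e1]; ring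
    · simp; rw [e2]; ring

/-- a crossing in the sense of `SegCross` gives a common point of the closed segments -/
lemma SegCross.segment_inter {a r a' s : ℝ × ℝ} (h : SegCross a r a' s) :
    (segment ℝ a r ∩ segment ℝ a' s).Nonempty := by
  obtain ⟨x, h1, h2⟩ := h.openSegment_inter
  exact ⟨x, openSegment_subset_segment ℝ a r h1, openSegment_subset_segment ℝ a' s h2⟩

end Vale.Agent.P040.Lin
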