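import Vale.Agent.P040.Lin.Defs

/-!
# Rows O1 - O7: the orders of the rotation and of the two end states in terms of determinants
-/

namespace Vale.Agent.P040.Lin

open Finset Vale.Agent.P040.All Vale.Agent.P040.Rect

variable {k : ℕ} {r : ℕ → ℝ × ℝ} {b b' : ℝ × ℝ}

/-- (O1) `unfold det; ring` -/
lemma det_swap (c x y : ℝ × ℝ) : det c y x = - det c x y := by
  unfold det; ring

/-- (O1) `unfold det; ring` -/
lemma det_cyc (c x y : ℝ × ℝ) : det x y c = det c x y := by
  unfold det; ring

/-- (O1) `unfold det; ring` -/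
lemma id_b (b b' x y : ℝ × ℝ) :
    (x.1 - b.1) * det b b' y - (y.1 - b.1) * det b b' x = (b'.1 - b.1) * det b x y := by
  unfold det; ring

/-- (O1) `unfold det; ring` -/
lemma id_b' (b b' x y : ℝ × ℝ) :
    (x.1 - b'.1) * det b b' y - (y.1 - b'.1) * det b b' x = (b'.1 - b.1) * det b' x y := by
  unfold det; ring

/-- (O2) `rotK` is injective (the label), as `stK_inj` in Tools; then `inj_ik`. -/
lemma inj_rotI (k : ℕ) (r : ℕ → ℝ × ℝ) (c : ℝ × ℝ) : Inj (2 * k + 1) (rotI k r c) := by
  unfold rotI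
  apply inj_ik
  intro x _ y _ e
  unfold rotK at e
  have e1 := congrArg (fun z => (ofLex (ofLex z).2).2) e
  simpa using e1

/-- (O3) order of the rotation at `c`.  `ik_lt_iff`, `Prod.Lex.toLex_lt_toLex` twice (as `stK_lt_iff` in Tools).
Blocks: split on `c.1 < (r p).1`, `c.1 < (r q).1`.  Same block: slope_q - slope_p = det c (r p) (r q) / (dx_p * dx_q) with
`dx_p * dx_q > 0` (`div_lt_div_iff_of_pos`-type lemmas or `sub_pos`, `field_simp`); equal slopes are impossible since `det ≠ 0`. -/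
lemma rotI_lt_iff (c : ℝ × ℝ) {p q : ℕ} (hp : p < 2 * k + 1) (hcp : (r p).1 ≠ c.1)
    (hcq : (r q).1 ≠ c.1) (hd : det c (r p) (r q) ≠ 0) :
    rotI k r c p < rotI k r c q ↔ (c.1 < (r p).1 ∧ (r q).1 < c.1) ∨
      (0 < ((r p).1 - c.1) * ((r q).1 - c.1) ∧ 0 < det c (r p) (r q)) := by
  unfold rotI
  rw [ik_lt_iff hp]
  unfold rotK
  rw [Prod.Lex.toLex_lt_toLex, Prod.Lex.toLex_lt_toLex]
  have h1 : (r p).1 - c.1 ≠ 0 := sub_ne_zero.2 hcp
  have h2 : (r q).1 - c.1 ≠ 0 := sub_ne_zero.2 hcq
  have hslope : ((r q).2 - c.2) / ((r q).1 - c.1) - ((r p).2 - c.2) / ((r p).1 - c.1)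
      = det c (r p) (r q) / (((r p).1 - c.1) * ((r q).1 - c.1)) := by
    unfold det
    field_simp
  have same : 0 < ((r p).1 - c.1) * ((r q).1 - c.1) →
      ((((r p).2 - c.2) / ((r p).1 - c.1) < ((r q).2 - c.2) / ((r q).1 - c.1) ∨
        (((r p).2 - c.2) / ((r p).1 - c.1) = ((r q).2 - c.2) / ((r q).1 - c.1) ∧ p < q)) ↔
        0 < det c (r p) (r q)) := by
    intro hpos
    constructor
    · rintro (hlt | ⟨heq, -⟩)
      · have : 0 < det c (r p) (r q) / (((r p).1 - c.1) * ((r q).1 - c.1)) := by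
          rw [← hslope]; linarith
        exact (div_pos_iff_of_pos_right hpos).1 this
      · exfalso
        have : det c (r p) (r q) / (((r p).1 - c.1) * ((r q).1 - c.1)) = 0 := by
          rw [← hslope]; linarith
        rcases div_eq_zero_iff.1 this with h | h
        · exact hd h
        · exact (ne_of_gt hpos) h
    · intro hdet
      left
      have : 0 < det c (r p) (r q) / (((r p).1 - c.1) * ((r q).1 - c.1)) := div_pos hdet hpos
      rw [← hslope] at this
      linarith
  rcases lt_or_gt_of_ne hcp with hP | hP <;> rcases lt_or_gt_of_ne hcq with hQ | hQ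
  · have a1 : ¬ c.1 < (r p).1 := not_lt.2 hP.le
    have a2 : ¬ c.1 < (r q).1 := not_lt.2 hQ.le
    have hpos : 0 < ((r p).1 - c.1) * ((r q).1 - c.1) := mul_pos_of_neg_of_neg (by linarith) (by linarith)
    simp only [a1, a2, if_false, lt_irrefl, false_or, true_and, false_and, hpos]
    exact same hpos
  · have a1 : ¬ c.1 < (r p).1 := not_lt.2 hP.le
    have hneg : ¬ 0 < ((r p).1 - c.1) * ((r q).1 - c.1) :=
      not_lt.2 (mul_nonpos_of_nonpos_of_nonneg (by linarith) (by linarith))
    simp [a1, hQ, hneg]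
  · have a2 : ¬ c.1 < (r q).1 := not_lt.2 hQ.le
    simp [a2, hP, hQ]
  · have hpos : 0 < ((r p).1 - c.1) * ((r q).1 - c.1) := mul_pos (by linarith) (by linarith)
    have b2 : ¬ (r q).1 < c.1 := not_lt.2 hQ.le
    simp only [hP, hQ, if_true, lt_irrefl, false_or, true_and, and_false, b2, hpos]
    exact same hpos

/-- (O4) order of the state `u = 1`.  `stk_lt_iff`; `blk` by cases on the signs of `h`; same block:
`val 1 q - val 1 p = 2 * w * det b (r p) (r q) / (h p * h q)` by `id_b` (`w + A p = 2 (x_p - x(b))`), and `h p * h q > 0`. -/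
lemma stI_one_lt_iff (h : Gen k r b b') {p q : ℕ} (hp : p < 2 * k + 1) (hq : q < 2 * k + 1)
    (hpq : p ≠ q) :
    stI k r b b' 1 p < stI k r b b' 1 q ↔ (0 < hB r b b' p ∧ hB r b b' q < 0) ∨
      (0 < hB r b b' p * hB r b b' q ∧ 0 < det b (r p) (r q)) := by
  have hw : 0 < wB b b' := sub_pos.2 h.hbb
  have hhp : hB r b b' p ≠ 0 := h.hL p hp
  have hhq : hB r b b' q ≠ 0 := h.hL q hq
  have hdet : det b (r p) (r q) ≠ 0 := by
    rcases lt_or_gt_of_ne hpq with h1 | h1
    · exact h.hd p q h1 hq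
    · have h2 := h.hd q p h1 hp
      intro h0
      apply h2
      unfold det at h0 ⊢
      linarith
  have key : val (wB b b') (AB r b b') (hB r b b') 1 q - val (wB b b') (AB r b b') (hB r b b') 1 p
      = 2 * wB b b' * det b (r p) (r q) / (hB r b b' p * hB r b b' q) := by
    unfold val
    rw [eq_div_iff (mul_ne_zero hhp hhq)]
    field_simp
    unfold AB wB hB det
    ring
  unfold stI
  rw [stk_lt_iff _ _ _ _ hp]
  have hsame : 0 < hB r b b' p * hB r b b' q →
      ((val (wB b b') (AB r b b') (hB r b b') 1 p < val (wB b b') (AB r b b') (hB r b b') 1 q ∨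
        (val (wB b b') (AB r b b') (hB r b b') 1 p = val (wB b b') (AB r b b') (hB r b b') 1 q ∧
          p < q)) ↔ 0 < det b (r p) (r q)) := by
    intro hpos
    constructor
    · rintro (h1 | ⟨h1, -⟩)
      · have h2 : 0 < 2 * wB b b' * det b (r p) (r q) / (hB r b b' p * hB r b b' q) := by
          rw [← key]; linarith
        have h3 : 0 < 2 * wB b b' * det b (r p) (r q) := by
          rcases (div_pos_iff.1 h2) with h4 | h4
          · exact h4.1
          · exact absurd hpos (not_lt.2 h4.2.le)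
        by_contra hc
        have : det b (r p) (r q) ≤ 0 := not_lt.1 hc
        nlinarith
      · exfalso
        have h2 : 2 * wB b b' * det b (r p) (r q) / (hB r b b' p * hB r b b' q) = 0 := by
          rw [← key]; linarith
        rcases div_eq_zero_iff.1 h2 with h3 | h3
        · have : wB b b' * det b (r p) (r q) ≠ 0 := mul_ne_zero hw.ne' hdet
          apply this; linarith
        · exact hpos.ne' h3
    · intro hd
      left
      have h2 : 0 < 2 * wB b b' * det b (r p) (r q) / (hB r b b' p * hB r b b' q) := by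
        positivity
      rw [← key] at h2
      linarith
  rcases lt_or_gt_of_ne hhp with hp0 | hp0 <;> rcases lt_or_gt_of_ne hhq with hq0 | hq0
  · have hpos : 0 < hB r b b' p * hB r b b' q := mul_pos_of_neg_of_neg hp0 hq0
    have b1 : blk (hB r b b') p = 1 := by unfold blk; rw [if_neg (not_lt.2 hp0.le)]
    have b2 : blk (hB r b b') q = 1 := by unfold blk; rw [if_neg (not_lt.2 hq0.le)]
    rw [b1, b2, hsame hpos]
    constructor
    · rintro (h1 | h1)
      · exact absurd h1 (lt_irrefl _)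
      · exact Or.inr ⟨hpos, h1.2⟩
    · rintro (h1 | h1)
      · exact absurd h1.1 (not_lt.2 hp0.le)
      · exact Or.inr ⟨rfl, h1.2⟩
  · have hneg : hB r b b' p * hB r b b' q < 0 := mul_neg_of_neg_of_pos hp0 hq0
    have b1 : blk (hB r b b') p = 1 := by unfold blk; rw [if_neg (not_lt.2 hp0.le)]
    have b2 : blk (hB r b b') q = 0 := by unfold blk; rw [if_pos hq0]
    rw [b1, b2]
    constructor
    · rintro (h1 | h1)
      · exact absurd h1 (by norm_num)
      · exact absurd h1.1 (by norm_num)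
    · rintro (h1 | h1)
      · exact absurd h1.1 (not_lt.2 hp0.le)
      · exact absurd h1.1 (not_lt.2 hneg.le)
  · have b1 : blk (hB r b b') p = 0 := by unfold blk; rw [if_pos hp0]
    have b2 : blk (hB r b b') q = 1 := by unfold blk; rw [if_neg (not_lt.2 hq0.le)]
    rw [b1, b2]
    constructor
    · intro _
      exact Or.inl ⟨hp0, hq0⟩
    · intro _
      exact Or.inl (by norm_num)
  · have hpos : 0 < hB r b b' p * hB r b b' q := mul_pos hp0 hq0
    have b1 : blk (hB r b b') p = 0 := by unfold blk; rw [if_pos hp0]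
    have b2 : blk (hB r b b') q = 0 := by unfold blk; rw [if_pos hq0]
    rw [b1, b2, hsame hpos]
    constructor
    · rintro (h1 | h1)
      · exact absurd h1 (lt_irrefl _)
      · exact Or.inr ⟨hpos, h1.2⟩
    · rintro (h1 | h1)
      · exact absurd h1.2 (not_lt.2 hq0.le)
      · exact Or.inr ⟨rfl, h1.2⟩

private lemma sign_aux5 {P vp vq w d : ℝ} (c : Prop) (hP : 0 < P) (hw : 0 < w) (hd : d ≠ 0)
    (key : P * (vp - vq) = 2 * w * d) : (vp < vq ∨ (vp = vq ∧ c)) ↔ d < 0 := by
  constructor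
  · rintro (h1 | ⟨h1, -⟩)
    · by_contra hc
      have h2 : 0 ≤ 2 * w * d := by
        have := not_lt.1 hc
        positivity
      have h3 : P * (vp - vq) < 0 := mul_neg_of_pos_of_neg hP (sub_neg.2 h1)
      linarith
    · exfalso
      rw [h1, sub_self, mul_zero] at key
      have : 2 * w ≠ 0 := by positivity
      exact hd ((mul_eq_zero.1 key.symm).resolve_left this)
  · intro h1
    left
    have h2 : 2 * w * d < 0 := mul_neg_of_pos_of_neg (by positivity) h1
    rw [← key] at h2
    by_contra hc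
    have : 0 ≤ P * (vp - vq) := mul_nonneg hP.le (sub_nonneg.2 (not_lt.1 hc))
    linarith

/-- (O5) order of the state `u = -1`.  As O4 with `id_b'` (`w - A p = 2 (x(b') - x_p)`). -/
lemma stI_neg_one_lt_iff (h : Gen k r b b') {p q : ℕ} (hp : p < 2 * k + 1) (hq : q < 2 * k + 1)
    (hpq : p ≠ q) :
    stI k r b b' (-1) p < stI k r b b' (-1) q ↔ (0 < hB r b b' p ∧ hB r b b' q < 0) ∨
      (0 < hB r b b' p * hB r b b' q ∧ det b' (r p) (r q) < 0) := by
  have hhp : hB r b b' p ≠ 0 := h.hL p hp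
  have hhq : hB r b b' q ≠ 0 := h.hL q hq
  have hw : 0 < wB b b' := sub_pos.2 h.hbb
  have hdet : det b' (r p) (r q) ≠ 0 := by
    rcases lt_or_gt_of_ne hpq with h1 | h1
    · exact h.hd' p q h1 hq
    · rw [det_swap b' (r q) (r p)]
      exact neg_ne_zero.2 (h.hd' q p h1 hp)
  have key : hB r b b' p * hB r b b' q *
      (val (wB b b') (AB r b b') (hB r b b') (-1) p - val (wB b b') (AB r b b') (hB r b b') (-1) q) =
      2 * wB b b' * det b' (r p) (r q) := by
    have e := id_b' b b' (r p) (r q)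
    have e2 : 2 * wB b b' * det b' (r p) (r q) =
        2 * (((r p).1 - b'.1) * hB r b b' q - ((r q).1 - b'.1) * hB r b b' p) := by
      unfold wB hB
      rw [e]; ring
    rw [e2]
    unfold val AB wB
    field_simp
    ring
  unfold stI
  rw [stk_lt_iff _ _ _ _ hp]
  rcases lt_or_gt_of_ne hhp with hp0 | hp0 <;> rcases lt_or_gt_of_ne hhq with hq0 | hq0
  · have b1 : blk (hB r b b') p = 1 := by unfold blk; rw [if_neg (not_lt.2 hp0.le)]
    have b2 : blk (hB r b b') q = 1 := by unfold blk; rw [if_neg (not_lt.2 hq0.le)]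
    have hP : 0 < hB r b b' p * hB r b b' q := mul_pos_of_neg_of_neg hp0 hq0
    rw [b1, b2, sign_aux5 (p < q) hP hw hdet key]
    constructor
    · rintro (h1 | ⟨-, h1⟩)
      · exact absurd h1 (lt_irrefl _)
      · exact Or.inr ⟨hP, h1⟩
    · rintro (⟨h1, -⟩ | ⟨-, h1⟩)
      · exact absurd h1 (not_lt.2 hp0.le)
      · exact Or.inr ⟨rfl, h1⟩
  · have b1 : blk (hB r b b') p = 1 := by unfold blk; rw [if_neg (not_lt.2 hp0.le)]
    have b2 : blk (hB r b b') q = 0 := by unfold blk; rw [if_pos hq0]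
    have hP : hB r b b' p * hB r b b' q < 0 := mul_neg_of_neg_of_pos hp0 hq0
    rw [b1, b2]
    constructor
    · rintro (h1 | ⟨h1, -⟩)
      · exact absurd h1 (by norm_num)
      · exact absurd h1 (by norm_num)
    · rintro (⟨h1, -⟩ | ⟨h1, -⟩)
      · exact absurd h1 (not_lt.2 hp0.le)
      · exact absurd h1 (not_lt.2 hP.le)
  · have b1 : blk (hB r b b') p = 0 := by unfold blk; rw [if_pos hp0]
    have b2 : blk (hB r b b') q = 1 := by unfold blk; rw [if_neg (not_lt.2 hq0.le)]
    rw [b1, b2]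
    constructor
    · intro _
      exact Or.inl ⟨hp0, hq0⟩
    · intro _
      exact Or.inl (by norm_num)
  · have b1 : blk (hB r b b') p = 0 := by unfold blk; rw [if_pos hp0]
    have b2 : blk (hB r b b') q = 0 := by unfold blk; rw [if_pos hq0]
    have hP : 0 < hB r b b' p * hB r b b' q := mul_pos hp0 hq0
    rw [b1, b2, sign_aux5 (p < q) hP hw hdet key]
    constructor
    · rintro (h1 | ⟨-, h1⟩)
      · exact absurd h1 (lt_irrefl _)
      · exact Or.inr ⟨hP, h1⟩
    · rintro (⟨-, h1⟩ | ⟨-, h1⟩)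
      · exact absurd h1 (not_lt.2 hq0.le)
      · exact Or.inr ⟨rfl, h1⟩

/-- (O6) `det b (r p) (r q) ≠ 0` for `p ≠ q` (both orders; `h.hd`, `det_swap`), same for `b'`. -/
lemma Gen.hd_ne (h : Gen k r b b') {p q : ℕ} (hp : p < 2 * k + 1) (hq : q < 2 * k + 1) (hpq : p ≠ q) :
    det b (r p) (r q) ≠ 0 ∧ det b' (r p) (r q) ≠ 0 := by
  rcases lt_or_gt_of_ne hpq with hlt | hlt
  · exact ⟨h.hd p q hlt hq, h.hd' p q hlt hq⟩
  · refine ⟨?_, ?_⟩
    · rw [det_swap]; exact neg_ne_zero.2 (h.hd q p hlt hp)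
    · rw [det_swap]; exact neg_ne_zero.2 (h.hd' q p hlt hp)

end Vale.Agent.P040.Lin
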