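import Vale.Agent.P040.Lin.Ends
import Vale.Agent.P040.Lin.Cross
import Vale.Agent.P040.Lin.Extreme

/-!
# Rows Z1 - Z6: assembly of the pair inequality (compare `All/Final.lean`)
-/

namespace Vale.Agent.P040.Lin

open Finset Vale.Agent.P040.All Vale.Agent.P040.Rect

variable {k : ℕ} {r : ℕ → ℝ × ℝ} {b b' : ℝ × ℝ}

/-- (Z1) `NN_ge`, `NN_le_k`, `NN_le_sub`, `inj_rotI`; unfold `xiR`, `wd`; `omega`. -/
lemma xiR_spec (c : ℝ × ℝ) {x : ℕ} (hx : x < 2 * k + 1) :
    xiR k r c x ≤ wd k x ∧ NN k (rotI k r c) x = xiR k r c x + (k - x) := by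
  have h1 := NN_ge (inj_rotI k r c) hx
  have h2 := NN_le_k (inj_rotI k r c) hx
  have h3 := NN_le_sub (k := k) (κ := rotI k r c) x
  unfold xiR wd
  omega

/-- (Z2) the red `x` is right of both blue points (`w < A x`): both codes are filled from the bottom (`therm_bb`); the row is extreme at
the time `tm x` (E8); P3, P4, Z1.  Unfold `PhiR` (`b.1 < (r x).1` and `b'.1 < (r x).1` from `w < A x`, `h.hbb`; unfold `wB`, `AB`).  For the
absolute values: `le_abs_self`, `neg_abs_le`, then `omega` (unfold `wd`). -/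
lemma row_R (h : Gen k r b b') {x : ℕ} (hx : x < 2 * k + 1) (hA : wB b b' < AB r b b' x) :
    (((range (wd k x)).filter fun τ => PhiR k r (x, τ) b = PhiR k r (x, τ) b').card : ℤ) ≤
      |(NN k (stI k r b b' 1) x : ℤ) - NN k (stI k r b b' (tm r b b' x)) x| +
      |(NN k (stI k r b b' (tm r b b' x)) x : ℤ) - NN k (stI k r b b' (-1)) x| := by
  have hbb := h.hbb
  have h2 : b'.1 < (r x).1 := by
    unfold wB AB at hA
    linarith
  have h1 : b.1 < (r x).1 := by linarith
  have hA0 : AB r b b' x ≠ 0 := by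
    have : 0 < wB b b' := by unfold wB; linarith
    intro e; rw [e] at hA; linarith
  obtain ⟨ha, ea⟩ := xiR_spec (k := k) (r := r) b hx
  obtain ⟨hb, eb⟩ := xiR_spec (k := k) (r := r) b' hx
  have e1 := NN_one h hx
  have e2 := NN_neg_one h hx
  have ht := therm_bb ha hb
  have hext := NN_tm h hx hA0
  have hf : ((range (wd k x)).filter fun τ => PhiR k r (x, τ) b = PhiR k r (x, τ) b') =
      ((range (wd k x)).filter fun τ =>
        decide (τ < xiR k r b x) = decide (τ < xiR k r b' x)) := by
    apply filter_congr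
    intro τ _
    unfold PhiR
    simp only [h1, h2, if_true]
  rw [hf]
  have g1 := le_abs_self ((NN k (stI k r b b' 1) x : ℤ) - NN k (stI k r b b' (tm r b b' x)) x)
  have g2 := neg_abs_le ((NN k (stI k r b b' 1) x : ℤ) - NN k (stI k r b b' (tm r b b' x)) x)
  have g3 := le_abs_self ((NN k (stI k r b b' (tm r b b' x)) x : ℤ) - NN k (stI k r b b' (-1)) x)
  have g4 := neg_abs_le ((NN k (stI k r b b' (tm r b b' x)) x : ℤ) - NN k (stI k r b b' (-1)) x)
  generalize |(NN k (stI k r b b' 1) x : ℤ) - NN k (stI k r b b' (tm r b b' x)) x| = A1 at *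
  generalize |(NN k (stI k r b b' (tm r b b' x)) x : ℤ) - NN k (stI k r b b' (-1)) x| = A2 at *
  unfold wd at *
  rcases hext with h3 | h3 <;> omega

/-- (Z3) the red `x` is left of both blue points (`A x < -w`): both codes are filled from the top (`therm_tt`); otherwise as Z2. -/
lemma row_L (h : Gen k r b b') {x : ℕ} (hx : x < 2 * k + 1) (hA : AB r b b' x < - wB b b') :
    (((range (wd k x)).filter fun τ => PhiR k r (x, τ) b = PhiR k r (x, τ) b').card : ℤ) ≤
      |(NN k (stI k r b b' 1) x : ℤ) - NN k (stI k r b b' (tm r b b' x)) x| +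
      |(NN k (stI k r b b' (tm r b b' x)) x : ℤ) - NN k (stI k r b b' (-1)) x| := by
  have hbb := h.hbb
  have h1 : ¬ b.1 < (r x).1 := by
    unfold wB AB at hA
    intro hc
    linarith
  have h2 : ¬ b'.1 < (r x).1 := by
    unfold wB AB at hA
    intro hc
    linarith
  have hA0 : AB r b b' x ≠ 0 := by
    have : 0 < wB b b' := by unfold wB; linarith
    intro e; rw [e] at hA; linarith
  obtain ⟨ha, ea⟩ := xiR_spec (k := k) (r := r) b hx
  obtain ⟨hb, eb⟩ := xiR_spec (k := k) (r := r) b' hx
  have e1 := NN_one h hx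
  have e2 := NN_neg_one h hx
  have ht := therm_tt ha hb
  have hext := NN_tm h hx hA0
  have hf : ((range (wd k x)).filter fun τ => PhiR k r (x, τ) b = PhiR k r (x, τ) b') =
      ((range (wd k x)).filter fun τ =>
        decide (wd k x ≤ τ + xiR k r b x) = decide (wd k x ≤ τ + xiR k r b' x)) := by
    apply filter_congr
    intro τ _
    unfold PhiR
    simp only [h1, h2, if_false]
  rw [hf]
  have g1 := le_abs_self ((NN k (stI k r b b' 1) x : ℤ) - NN k (stI k r b b' (tm r b b' x)) x)
  have g2 := neg_abs_le ((NN k (stI k r b b' 1) x : ℤ) - NN k (stI k r b b' (tm r b b' x)) x)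
  have g3 := le_abs_self ((NN k (stI k r b b' (tm r b b' x)) x : ℤ) - NN k (stI k r b b' (-1)) x)
  have g4 := neg_abs_le ((NN k (stI k r b b' (tm r b b' x)) x : ℤ) - NN k (stI k r b b' (-1)) x)
  generalize |(NN k (stI k r b b' 1) x : ℤ) - NN k (stI k r b b' (tm r b b' x)) x| = A1 at *
  generalize |(NN k (stI k r b b' (tm r b b' x)) x : ℤ) - NN k (stI k r b b' (-1)) x| = A2 at *
  unfold wd at *
  rcases hext with h3 | h3 <;> omega

/-- (Z4) the red `x` is between the blue points (`-w < A x < w`): `therm_bt`; P3, P4, Z1. -/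
lemma row_M (h : Gen k r b b') {x : ℕ} (hx : x < 2 * k + 1) (hA1 : - wB b b' < AB r b b' x)
    (hA2 : AB r b b' x < wB b b') :
    (((range (wd k x)).filter fun τ => PhiR k r (x, τ) b = PhiR k r (x, τ) b').card : ℤ) ≤
      |(NN k (stI k r b b' 1) x : ℤ) - NN k (stI k r b b' (-1)) x| := by
  have h1 : b.1 < (r x).1 := by
    unfold wB AB at hA1
    linarith
  have h2 : ¬ b'.1 < (r x).1 := by
    unfold wB AB at hA2
    intro hc
    linarith
  obtain ⟨ha, ea⟩ := xiR_spec (k := k) (r := r) b hx
  obtain ⟨hb, eb⟩ := xiR_spec (k := k) (r := r) b' hx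
  have e1 := NN_one h hx
  have e2 := NN_neg_one h hx
  have ht := therm_bt ha hb
  have hf : ((range (wd k x)).filter fun τ => PhiR k r (x, τ) b = PhiR k r (x, τ) b') =
      ((range (wd k x)).filter fun τ =>
        decide (τ < xiR k r b x) = decide (wd k x ≤ τ + xiR k r b' x)) := by
    apply filter_congr
    intro τ _
    unfold PhiR
    simp only [h1, h2, if_true, if_false]
  rw [hf]
  have g1 := le_abs_self ((NN k (stI k r b b' 1) x : ℤ) - NN k (stI k r b b' (-1)) x)
  have g2 := neg_abs_le ((NN k (stI k r b b' 1) x : ℤ) - NN k (stI k r b b' (-1)) x)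
  unfold wd at ht ha hb ⊢
  omega

/-- (Z5) every row is bounded by its `rowTV` with `S = {x | w < |A x|}`, `τ = tm`.  `A x ≠ ± w` by `h.hb`, `h.hb'`. -/
lemma row_le (h : Gen k r b b') {x : ℕ} (hx : x < 2 * k + 1) :
    (((range (wd k x)).filter fun τ => PhiR k r (x, τ) b = PhiR k r (x, τ) b').card : ℤ) ≤
      rowTV k (stI k r b b') ((range (2 * k + 1)).filter fun x => wB b b' < |AB r b b' x|)
        (tm r b b') 1 (-1) x := by
  have hw : 0 < wB b b' := by unfold wB; linarith [h.hbb]
  have h1 : AB r b b' x ≠ wB b b' := by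
    intro e; apply h.hb' x hx; unfold AB wB at e; linarith
  have h2 : AB r b b' x ≠ - wB b b' := by
    intro e; apply h.hb x hx; unfold AB wB at e; linarith
  unfold rowTV
  by_cases hS : wB b b' < |AB r b b' x|
  · have hmem : x ∈ (range (2 * k + 1)).filter fun x => wB b b' < |AB r b b' x| :=
      mem_filter.2 ⟨mem_range.2 hx, hS⟩
    rw [if_pos hmem]
    rcases lt_abs.1 hS with hA | hA
    · exact row_R h hx hA
    · exact row_L h hx (by linarith)
  · have hmem : x ∉ (range (2 * k + 1)).filter fun x => wB b b' < |AB r b b' x| := by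
      intro hm; exact hS (mem_filter.1 hm).2
    rw [if_neg hmem]
    have hle := abs_le.1 (not_lt.1 hS)
    exact row_M h hx (lt_of_le_of_ne hle.1 (Ne.symm h2)) (lt_of_le_of_ne hle.2 h1)

/-- (Z6) **the pair inequality**: `card_filter_II`, Z5, `tv_le_disc` (`inj_stk`, `st_between`, E3), C2. -/
theorem pair_ineq (h : Gen k r b b') :
    ((II k).filter fun f => PhiR k r f b = PhiR k r f b').card ≤ crR k r b b' := by
  have h1 := card_filter_II k (fun f => PhiR k r f b = PhiR k r f b')
  have h2 : ∑ x ∈ range (2 * k + 1), rowTV k (stI k r b b')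
      ((range (2 * k + 1)).filter fun x => wB b b' < |AB r b b' x|) (tm r b b') 1 (-1) x ≤
      ((Disc (2 * k + 1) (stI k r b b' 1) (stI k r b b' (-1))).card : ℤ) := by
    apply tv_le_disc (κ := stI k r b b') (fun u => inj_stk _ _ _ _ u) (st_between _ _ _ _)
    · norm_num
    · intro x hx
      exact tm_mem h (mem_filter.1 hx).2
  have h3 := disc_le_crR h
  have h4 : (∑ x ∈ range (2 * k + 1),
      ((range (wd k x)).filter fun τ => PhiR k r (x, τ) b = PhiR k r (x, τ) b').card : ℤ) ≤
      ∑ x ∈ range (2 * k + 1), rowTV k (stI k r b b')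
      ((range (2 * k + 1)).filter fun x => wB b b' < |AB r b b' x|) (tm r b b') 1 (-1) x :=
    sum_le_sum fun x hx => row_le h (mem_range.1 hx)
  have h5 : (((II k).filter fun f => PhiR k r f b = PhiR k r f b').card : ℤ) ≤ crR k r b b' := by
    rw [h1]
    push_cast
    calc _ ≤ _ := h4
      _ ≤ _ := h2
      _ ≤ _ := by exact_mod_cast h3
  exact_mod_cast h5

end Vale.Agent.P040.Lin
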