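import Vale.Agent.P040.All.Kendall

/-!
# Generic tools for the rectilinear case (helper34)

* `ik`: integer key with the same order as a key with values in any linear order
* `tv_le_disc`: total variation along a monotone family of arrangements, every row with its own time
* `stK`, `st_between`: the arrangement seen from the moving point, one affine parameter
-/

namespace Vale.Agent.P040.Lin

open Finset Vale.Agent.P040.All

section rank

variable {α : Type*} [LinearOrder α] {n : ℕ} {K : ℕ → α}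

/-- integer key with the same order as `K` on `range n` -/
def ik (n : ℕ) (K : ℕ → α) (x : ℕ) : ℤ := (((range n).filter fun y => K y < K x).card : ℤ)

lemma ik_le_of_le {x y : ℕ} (h : K x ≤ K y) : ik n K x ≤ ik n K y := by
  unfold ik
  have : ((range n).filter fun z => K z < K x) ⊆ ((range n).filter fun z => K z < K y) := by
    intro z hz
    rw [mem_filter] at hz ⊢
    exact ⟨hz.1, lt_of_lt_of_le hz.2 h⟩
  exact_mod_cast card_le_card this

lemma ik_lt_of_lt {x y : ℕ} (hx : x < n) (h : K x < K y) : ik n K x < ik n K y := by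
  unfold ik
  have : ((range n).filter fun z => K z < K x) ⊂ ((range n).filter fun z => K z < K y) := by
    rw [Finset.ssubset_iff_of_subset]
    · exact ⟨x, by rw [mem_filter]; exact ⟨mem_range.2 hx, h⟩, by
        rw [mem_filter]; exact fun hh => lt_irrefl _ hh.2⟩
    · intro z hz
      rw [mem_filter] at hz ⊢
      exact ⟨hz.1, lt_trans hz.2 h⟩
  exact_mod_cast card_lt_card this

/-- (T1) the integer key has the same order -/
lemma ik_lt_iff {x y : ℕ} (hx : x < n) : ik n K x < ik n K y ↔ K x < K y := by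
  constructor
  · intro h
    by_contra hc
    exact absurd (ik_le_of_le (n := n) (not_lt.1 hc)) (not_le.2 h)
  · exact ik_lt_of_lt hx

/-- (T1) the integer key is injective -/
lemma inj_ik (hK : ∀ x < n, ∀ y < n, K x = K y → x = y) : Inj n (ik n K) := by
  intro x hx y hy h
  apply hK x hx y hy
  rcases lt_trichotomy (K x) (K y) with h1 | h1 | h1
  · exact absurd h (ne_of_lt (ik_lt_of_lt hx h1))
  · exact h1
  · exact absurd h.symm (ne_of_lt (ik_lt_of_lt hy h1))

end rank

section tv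

variable {k : ℕ} {κ : ℝ → ℕ → ℤ}

/-- betweenness of a family of arrangements -/
def Between (n : ℕ) (κ : ℝ → ℕ → ℤ) : Prop :=
  ∀ u0 u1 u2 : ℝ, u2 ≤ u1 → u1 ≤ u0 → ∀ x < n, ∀ y < n, x < y →
    (κ u0 x < κ u0 y ↔ κ u2 x < κ u2 y) → (κ u1 x < κ u1 y ↔ κ u0 x < κ u0 y)

lemma disc_subadd {n : ℕ} (hb : Between n κ) {u0 u1 u2 : ℝ} (h21 : u2 ≤ u1) (h10 : u1 ≤ u0) :
    (Disc n (κ u0) (κ u1)).card + (Disc n (κ u1) (κ u2)).card ≤ (Disc n (κ u0) (κ u2)).card := by
  rw [← card_union_of_disjoint]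
  · apply card_le_card
    intro q hq
    rw [mem_union] at hq
    simp only [Disc, mem_filter, mem_product, mem_range] at hq ⊢
    rcases hq with ⟨⟨hx, hy⟩, hxy, hd⟩ | ⟨⟨hx, hy⟩, hxy, hd⟩
    · refine ⟨⟨hx, hy⟩, hxy, fun h => hd ?_⟩
      exact (hb u0 u1 u2 h21 h10 _ hx _ hy hxy h).symm
    · refine ⟨⟨hx, hy⟩, hxy, fun h => hd ?_⟩
      exact (hb u0 u1 u2 h21 h10 _ hx _ hy hxy h).trans h
  · rw [Finset.disjoint_left]
    intro q h1 h2
    simp only [Disc, mem_filter, mem_product, mem_range] at h1 h2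
    obtain ⟨⟨hx, hy⟩, hxy, hd1⟩ := h1
    obtain ⟨-, -, hd2⟩ := h2
    have h02 : (κ u0 q.1 < κ u0 q.2 ↔ κ u2 q.1 < κ u2 q.2) := by
      by_cases a : κ u0 q.1 < κ u0 q.2 <;> by_cases b : κ u1 q.1 < κ u1 q.2 <;>
        by_cases c : κ u2 q.1 < κ u2 q.2 <;> tauto
    exact hd1 (hb u0 u1 u2 h21 h10 _ hx _ hy hxy h02).symm

/-- the contribution of the row `x` -/
def rowTV (k : ℕ) (κ : ℝ → ℕ → ℤ) (S : Finset ℕ) (τ : ℕ → ℝ) (u0 u1 : ℝ) (x : ℕ) : ℤ :=
  if x ∈ S then |(NN k (κ u0) x : ℤ) - NN k (κ (τ x)) x| + |(NN k (κ (τ x)) x : ℤ) - NN k (κ u1) x|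
  else |(NN k (κ u0) x : ℤ) - NN k (κ u1) x|

/-- (T2) total variation, every row `x ∈ S` with its own intermediate time `τ x` -/
theorem tv_le_disc (hinj : ∀ u, Inj (2 * k + 1) (κ u)) (hb : Between (2 * k + 1) κ) (τ : ℕ → ℝ)
    (S : Finset ℕ) : ∀ u0 u1 : ℝ, u1 ≤ u0 → (∀ x ∈ S, u1 ≤ τ x ∧ τ x ≤ u0) →
    ∑ x ∈ range (2 * k + 1), rowTV k κ S τ u0 u1 x ≤ (Disc (2 * k + 1) (κ u0) (κ u1)).card := by
  induction S using Finset.induction_on_max_value τ with
  | empty =>
    intro u0 u1 _ _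
    have := DD_le_disc (hinj u0) (hinj u1)
    simpa [rowTV, DD] using this
  | insert a s ha hmax ih =>
    intro u0 u1 h10 hτ
    have hta := hτ a (mem_insert_self a s)
    have ih' := ih (τ a) u1 hta.1 (fun x hx => ⟨(hτ x (mem_insert_of_mem hx)).1, hmax x hx⟩)
    have h1 := DD_le_disc (hinj u0) (hinj (τ a))
    have h2 := disc_subadd hb hta.1 hta.2
    have hpt : ∀ x ∈ range (2 * k + 1), rowTV k κ (insert a s) τ u0 u1 x ≤
        |(NN k (κ u0) x : ℤ) - NN k (κ (τ a)) x| + rowTV k κ s τ (τ a) u1 x := by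
      intro x _
      by_cases hxa : x = a
      · subst hxa
        simp [rowTV, ha]
      · by_cases hxs : x ∈ s
        · have : x ∈ insert a s := mem_insert_of_mem hxs
          simp only [rowTV, this, hxs, if_true]
          have := abs_sub_le (NN k (κ u0) x : ℤ) (NN k (κ (τ a)) x) (NN k (κ (τ x)) x)
          linarith
        · have : x ∉ insert a s := by
            rw [mem_insert]; tauto
          simp only [rowTV, this, hxs, if_false]
          exact abs_sub_le _ _ _
    calc ∑ x ∈ range (2 * k + 1), rowTV k κ (insert a s) τ u0 u1 x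
        ≤ ∑ x ∈ range (2 * k + 1), (|(NN k (κ u0) x : ℤ) - NN k (κ (τ a)) x| +
            rowTV k κ s τ (τ a) u1 x) := sum_le_sum hpt
      _ = DD k (κ u0) (κ (τ a)) + ∑ x ∈ range (2 * k + 1), rowTV k κ s τ (τ a) u1 x := by
          rw [sum_add_distrib]; rfl
      _ ≤ ((Disc (2 * k + 1) (κ u0) (κ (τ a))).card : ℤ) +
            (Disc (2 * k + 1) (κ (τ a)) (κ u1)).card := add_le_add h1 ih'
      _ ≤ _ := by exact_mod_cast h2

end tv

section state

/-- sign pattern of an affine function with a tie-break -/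
lemma affine_between (α β u0 u1 u2 : ℝ) (h21 : u2 ≤ u1) (h10 : u1 ≤ u0) (c : Prop)
    (h : (α + β * u0 < 0 ∨ (α + β * u0 = 0 ∧ c)) ↔ (α + β * u2 < 0 ∨ (α + β * u2 = 0 ∧ c))) :
    (α + β * u1 < 0 ∨ (α + β * u1 = 0 ∧ c)) ↔ (α + β * u0 < 0 ∨ (α + β * u0 = 0 ∧ c)) := by
  rcases le_total 0 β with hβ | hβ
  · have e1 : α + β * u2 ≤ α + β * u1 := by nlinarith
    have e2 : α + β * u1 ≤ α + β * u0 := by nlinarith
    constructor
    · intro h1
      by_contra h0
      have h2 : ¬ (α + β * u2 < 0 ∨ (α + β * u2 = 0 ∧ c)) := fun hh => h0 (h.2 hh)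
      rw [not_or] at h0 h2
      rcases h1 with h1 | ⟨h1, hc⟩
      · exact h2.1 (lt_of_le_of_lt e1 h1)
      · rcases lt_or_eq_of_le (h1 ▸ e1 : α + β * u2 ≤ 0) with h3 | h3
        · exact h2.1 h3
        · exact h2.2 ⟨h3, hc⟩
    · intro h0
      rcases h0 with h0 | ⟨h0, hc⟩
      · exact Or.inl (lt_of_le_of_lt e2 h0)
      · rcases lt_or_eq_of_le (h0 ▸ e2 : α + β * u1 ≤ 0) with h3 | h3
        · exact Or.inl h3
        · exact Or.inr ⟨h3, hc⟩
  · have e1 : α + β * u1 ≤ α + β * u2 := by nlinarith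
    have e2 : α + β * u0 ≤ α + β * u1 := by nlinarith
    constructor
    · intro h1
      rcases h1 with h1 | ⟨h1, hc⟩
      · exact Or.inl (lt_of_le_of_lt e2 h1)
      · rcases lt_or_eq_of_le (h1 ▸ e2 : α + β * u0 ≤ 0) with h3 | h3
        · exact Or.inl h3
        · exact Or.inr ⟨h3, hc⟩
    · intro h0
      have h2 := h.1 h0
      rcases h2 with h2 | ⟨h2, hc⟩
      · exact Or.inl (lt_of_le_of_lt e1 h2)
      · rcases lt_or_eq_of_le (h2 ▸ e1 : α + β * u1 ≤ 0) with h3 | h3
        · exact Or.inl h3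
        · exact Or.inr ⟨h3, hc⟩

/-- the block of the red `p`: `0` above the line, `1` below -/
noncomputable def blk (h : ℕ → ℝ) (p : ℕ) : ℕ := if 0 < h p then 0 else 1

/-- the real key of the red `p` at time `u` (the arrangement lists a block by increasing key) -/
noncomputable def val (w : ℝ) (A h : ℕ → ℝ) (u : ℝ) (p : ℕ) : ℝ := -((w + A p * u) / h p)

/-- the key (block, real key, label) -/
noncomputable def stK (w : ℝ) (A h : ℕ → ℝ) (u : ℝ) (p : ℕ) : ℕ ×ₗ (ℝ ×ₗ ℕ) :=
  toLex (blk h p, toLex (val w A h u p, p))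

lemma stK_lt_iff (w : ℝ) (A h : ℕ → ℝ) (u : ℝ) (p q : ℕ) :
    stK w A h u p < stK w A h u q ↔ blk h p < blk h q ∨ (blk h p = blk h q ∧
      (val w A h u p < val w A h u q ∨ (val w A h u p = val w A h u q ∧ p < q))) := by
  unfold stK
  rw [Prod.Lex.toLex_lt_toLex, Prod.Lex.toLex_lt_toLex]

lemma stK_inj (w : ℝ) (A h : ℕ → ℝ) (u : ℝ) {p q : ℕ} (e : stK w A h u p = stK w A h u q) :
    p = q := by
  unfold stK at e
  have e1 := congrArg (fun z => (ofLex (ofLex z).2).2) e
  simpa using e1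

/-- the integer key of the arrangement at time `u` -/
noncomputable def stk (n : ℕ) (w : ℝ) (A h : ℕ → ℝ) (u : ℝ) : ℕ → ℤ := ik n (stK w A h u)

lemma inj_stk (n : ℕ) (w : ℝ) (A h : ℕ → ℝ) (u : ℝ) : Inj n (stk n w A h u) :=
  inj_ik fun _ _ _ _ e => stK_inj w A h u e

lemma stk_lt_iff {n : ℕ} (w : ℝ) (A h : ℕ → ℝ) (u : ℝ) {p q : ℕ} (hp : p < n) :
    stk n w A h u p < stk n w A h u q ↔ blk h p < blk h q ∨ (blk h p = blk h q ∧
      (val w A h u p < val w A h u q ∨ (val w A h u p = val w A h u q ∧ p < q))) := by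
  unfold stk
  rw [ik_lt_iff hp, stK_lt_iff]

/-- (T3) betweenness of the arrangements `stk` -/
theorem st_between (n : ℕ) (w : ℝ) (A h : ℕ → ℝ) : Between n (stk n w A h) := by
  intro u0 u1 u2 h21 h10 x hx y _ _ hh
  rw [stk_lt_iff w A h u0 hx, stk_lt_iff w A h u2 hx] at hh
  rw [stk_lt_iff w A h u0 hx, stk_lt_iff w A h u1 hx]
  by_cases hb : blk h x < blk h y
  · simp [hb]
  by_cases he : blk h x = blk h y
  · have hb' : ¬ blk h y < blk h y := lt_irrefl _
    simp only [he, hb', true_and, false_or] at hh ⊢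
    have key : ∀ u, (val w A h u x < val w A h u y ∨ (val w A h u x = val w A h u y ∧ x < y)) ↔
        ((-w / h x + w / h y) + (-A x / h x + A y / h y) * u < 0 ∨
          ((-w / h x + w / h y) + (-A x / h x + A y / h y) * u = 0 ∧ x < y)) := by
      intro u
      have e : val w A h u x - val w A h u y =
          (-w / h x + w / h y) + (-A x / h x + A y / h y) * u := by
        unfold val; ring
      rw [← e, sub_neg, sub_eq_zero]
    rw [key u0, key u2] at hh
    rw [key u0, key u1]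
    exact affine_between _ _ u0 u1 u2 h21 h10 _ hh
  · simp [hb, he]

end state

end Vale.Agent.P040.Lin
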